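import Mathlib

/-!
# P249: final assembly of the near-linear dimension bound

From a sensitivity bound (A) and the sampling lemma (B), both taken as hypotheses,
we derive the embedding theorem for finite subsets of `ℓ_p^m`.
-/

namespace Vale.Agent.Lib.P249.helper60

open Finset

/-- Real-exponent core: sums of `q`-th powers are preserved up to the factor `D ^ q`. -/
theorem assemble_core
    (hB : ∀ (m n : ℕ) (w : Fin m → Fin n × Fin n → ℝ) (s : Fin m → ℝ)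
      (v : Fin n × Fin n → ℝ) (S : ℝ),
      (∀ k f, 0 ≤ w k f) → (∀ f, v f = ∑ k, w k f) → (∀ k, 0 ≤ s k) →
      (∀ k f, w k f ≤ s k * v f) → S = ∑ k, s k → 0 < S →
      ∀ ε : ℝ, 0 < ε → ε ≤ 1 → ∀ d : ℕ,
        8 * S * Real.log (2 * (Fintype.card (Fin n × Fin n) : ℝ) + 1) ≤ ε ^ 2 * d →
        ∃ κ : Fin d → Fin m, ∀ f,
          (1 - ε) * v f ≤ ∑ l, w (κ l) f * (S / ((d : ℝ) * s (κ l))) ∧
          ∑ l, w (κ l) f * (S / ((d : ℝ) * s (κ l))) ≤ (1 + ε) * v f)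
    (q : ℝ) (hq : 1 ≤ q) (A : ℝ) (hA0 : 0 ≤ A)
    (hA : ∀ (n m : ℕ), 2 ≤ n → ∀ x : Fin n → Fin m → ℝ, ∃ s : Fin m → ℝ,
      (∀ k, 0 ≤ s k) ∧
      (∀ k a b, |x a k - x b k| ^ q ≤ s k * ∑ k', |x a k' - x b k'| ^ q) ∧
      ∑ k, s k ≤ A * n * Real.log n ^ (q + 1))
    (D : ℝ) (hD : 1 < D) :
    ∃ C : ℝ, ∀ (n m : ℕ), 2 ≤ n → ∀ X : Fin n → Fin m → ℝ,
      ∃ (d : ℕ) (Y : Fin n → Fin d → ℝ),
        (d : ℝ) ≤ C * n * Real.log n ^ (q + 2) ∧
        ∀ i j, (∑ k, |X i k - X j k| ^ q) ≤ ∑ l, |Y i l - Y j l| ^ q ∧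
          ∑ l, |Y i l - Y j l| ^ q ≤ D ^ q * ∑ k, |X i k - X j k| ^ q := by
  have hq0 : 0 < q := by linarith
  have hqne : q ≠ 0 := hq0.ne'
  have hT : 1 < D ^ q := Real.one_lt_rpow hD hq0
  set T : ℝ := D ^ q with hTdef
  set ε : ℝ := (T - 1) / (T + 1) with hεdef
  have hT1 : 0 < T + 1 := by linarith
  have hε0 : 0 < ε := div_pos (by linarith) hT1
  have hε1 : ε < 1 := by
    rw [hεdef, div_lt_one hT1]; linarith
  have h1ε : 0 < 1 - ε := by linarith
  have hεT : 1 + ε = T * (1 - ε) := by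
    rw [hεdef]; field_simp; ring
  have hlog2 : 0 < Real.log 2 := Real.log_pos (by norm_num)
  refine ⟨32 * A / ε ^ 2 + (1 / Real.log 2) ^ (q + 2), ?_⟩
  intro n m hn X
  have hn1 : (1 : ℝ) ≤ n := by exact_mod_cast (by omega : 1 ≤ n)
  have hn2 : (2 : ℝ) ≤ n := by exact_mod_cast hn
  have hlogn : Real.log 2 ≤ Real.log n := Real.log_le_log (by norm_num) hn2
  have hlogn0 : 0 < Real.log n := lt_of_lt_of_le hlog2 hlogn
  have hpow0 : 0 ≤ Real.log n ^ (q + 2) := Real.rpow_nonneg hlogn0.le _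
  have hC1 : 1 ≤ (1 / Real.log 2) ^ (q + 2) * n * Real.log n ^ (q + 2) := by
    have h1 : (1 / Real.log 2) ^ (q + 2) * Real.log n ^ (q + 2)
        = (Real.log n / Real.log 2) ^ (q + 2) := by
      rw [← Real.mul_rpow (by positivity) hlogn0.le]
      congr 1
      field_simp
    have h2 : 1 ≤ (Real.log n / Real.log 2) ^ (q + 2) := by
      apply Real.one_le_rpow
      · rw [le_div_iff₀ hlog2]; linarith
      · linarith
    calc (1 : ℝ) ≤ (Real.log n / Real.log 2) ^ (q + 2) * 1 := by linarith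
      _ ≤ (Real.log n / Real.log 2) ^ (q + 2) * n :=
          mul_le_mul_of_nonneg_left hn1 (by linarith)
      _ = (1 / Real.log 2) ^ (q + 2) * n * Real.log n ^ (q + 2) := by
          rw [← h1]; ring
  obtain ⟨s, hs0, hs, hsS⟩ := hA n m hn X
  set S : ℝ := ∑ k, s k with hSdef
  have hS0 : 0 ≤ S := Finset.sum_nonneg (fun k _ => hs0 k)
  have hCnn : 0 ≤ 32 * A / ε ^ 2 + (1 / Real.log 2) ^ (q + 2) := by
    have : 0 ≤ (1 / Real.log 2) ^ (q + 2) := Real.rpow_nonneg (by positivity) _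
    have : 0 ≤ 32 * A / ε ^ 2 := by positivity
    linarith
  rcases hS0.eq_or_lt with hSz | hSpos
  · -- all the points coincide
    have hsz : ∀ k, s k = 0 := by
      intro k
      have := (Finset.sum_eq_zero_iff_of_nonneg (fun k _ => hs0 k)).mp hSz.symm k (Finset.mem_univ k)
      exact this
    have hz : ∀ i j, ∑ k, |X i k - X j k| ^ q = 0 := by
      intro i j
      apply Finset.sum_eq_zero
      intro k _
      have h1 := hs k i j
      rw [hsz k, zero_mul] at h1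
      exact le_antisymm h1 (Real.rpow_nonneg (abs_nonneg _) _)
    refine ⟨0, fun _ _ => 0, ?_, ?_⟩
    · have : 0 ≤ (32 * A / ε ^ 2 + (1 / Real.log 2) ^ (q + 2)) * n * Real.log n ^ (q + 2) := by
        have hn0 : (0 : ℝ) ≤ n := by linarith
        positivity
      simpa using this
    · intro i j
      rw [hz i j]
      simp
  · -- the main case
    set L : ℝ := Real.log (2 * ((n : ℝ) * n) + 1) with hLdef
    have hL0 : 0 ≤ L := Real.log_nonneg (by nlinarith)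
    have hL4 : L ≤ 4 * Real.log n := by
      have hu : (4 : ℝ) ≤ (n : ℝ) * n := by nlinarith
      have h1 : (2 : ℝ) * ((n : ℝ) * n) + 1 ≤ (n : ℝ) ^ (4 : ℕ) := by
        have h4 : (n : ℝ) ^ (4 : ℕ) = ((n : ℝ) * n) * ((n : ℝ) * n) := by ring
        rw [h4]
        nlinarith
      have h2 : Real.log ((n : ℝ) ^ (4 : ℕ)) = 4 * Real.log n := by
        rw [Real.log_pow]; norm_num
      rw [← h2]
      exact Real.log_le_log (by nlinarith) h1
    set d : ℕ := ⌈8 * S * L / ε ^ 2⌉₊ with hddef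
    have hdarg : 0 ≤ 8 * S * L / ε ^ 2 := by positivity
    have hd1 : 8 * S * L / ε ^ 2 ≤ d := Nat.le_ceil _
    have hd2 : (d : ℝ) < 8 * S * L / ε ^ 2 + 1 := Nat.ceil_lt_add_one hdarg
    have hd : 8 * S * Real.log (2 * (Fintype.card (Fin n × Fin n) : ℝ) + 1) ≤ ε ^ 2 * d := by
      have hcard : (Fintype.card (Fin n × Fin n) : ℝ) = (n : ℝ) * n := by
        simp [Fintype.card_prod]
      rw [hcard]
      have := (div_le_iff₀ (by positivity : (0 : ℝ) < ε ^ 2)).mp hd1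
      linarith
    obtain ⟨κ, hκ⟩ := hB m n (fun k f => |X f.1 k - X f.2 k| ^ q) s
      (fun f => ∑ k, |X f.1 k - X f.2 k| ^ q) S
      (fun k f => Real.rpow_nonneg (abs_nonneg _) _) (fun f => rfl) hs0
      (fun k f => hs k f.1 f.2) hSdef hSpos ε hε0 hε1.le d hd
    -- the scaling constants
    set b : Fin d → ℝ := fun l => S / ((d : ℝ) * s (κ l)) / (1 - ε) with hbdef
    have hb0 : ∀ l, 0 ≤ b l := by
      intro l
      have h1 : 0 ≤ (d : ℝ) * s (κ l) := mul_nonneg (Nat.cast_nonneg _) (hs0 _)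
      exact div_nonneg (div_nonneg hS0 h1) h1ε.le
    refine ⟨d, fun a l => X a (κ l) * (b l) ^ (q⁻¹), ?_, ?_⟩
    · -- the dimension bound
      have h1 : 8 * S * L / ε ^ 2 ≤ 32 * A / ε ^ 2 * n * Real.log n ^ (q + 2) := by
        have hSL : S * L ≤ (A * n * Real.log n ^ (q + 1)) * (4 * Real.log n) :=
          mul_le_mul hsS hL4 hL0 (le_trans hS0 hsS)
        have hpw : Real.log n ^ (q + 1) * Real.log n = Real.log n ^ (q + 2) := by
          rw [← Real.rpow_add_one hlogn0.ne']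
          congr 1; ring
        have h3 : 8 * S * L ≤ 32 * A * n * Real.log n ^ (q + 2) := by
          rw [← hpw]; nlinarith
        calc 8 * S * L / ε ^ 2 ≤ 32 * A * n * Real.log n ^ (q + 2) / ε ^ 2 :=
              div_le_div_of_nonneg_right h3 (by positivity)
          _ = 32 * A / ε ^ 2 * n * Real.log n ^ (q + 2) := by ring
      have h2 : (d : ℝ) ≤ 32 * A / ε ^ 2 * n * Real.log n ^ (q + 2) + 1 := by linarith
      calc (d : ℝ) ≤ 32 * A / ε ^ 2 * n * Real.log n ^ (q + 2) + 1 := h2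
        _ ≤ 32 * A / ε ^ 2 * n * Real.log n ^ (q + 2)
              + (1 / Real.log 2) ^ (q + 2) * n * Real.log n ^ (q + 2) := by linarith
        _ = (32 * A / ε ^ 2 + (1 / Real.log 2) ^ (q + 2)) * n * Real.log n ^ (q + 2) := by ring
    · intro i j
      have hterm : ∀ l : Fin d,
          |X i (κ l) * (b l) ^ (q⁻¹) - X j (κ l) * (b l) ^ (q⁻¹)| ^ q
            = |X i (κ l) - X j (κ l)| ^ q * (S / ((d : ℝ) * s (κ l))) / (1 - ε) := by
        intro l
        have hbl : 0 ≤ (b l) ^ (q⁻¹) := Real.rpow_nonneg (hb0 l) _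
        rw [← sub_mul, abs_mul, abs_of_nonneg hbl, Real.mul_rpow (abs_nonneg _) hbl,
          Real.rpow_inv_rpow (hb0 l) hqne, hbdef]
        ring
      have hsum : ∑ l, |X i (κ l) * (b l) ^ (q⁻¹) - X j (κ l) * (b l) ^ (q⁻¹)| ^ q
          = (∑ l, |X i (κ l) - X j (κ l)| ^ q * (S / ((d : ℝ) * s (κ l)))) / (1 - ε) := by
        rw [Finset.sum_div]
        exact Finset.sum_congr rfl (fun l _ => hterm l)
      obtain ⟨hlo, hhi⟩ := hκ (i, j)
      simp only at hlo hhi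
      rw [hsum]
      constructor
      · rw [le_div_iff₀ h1ε]
        linarith
      · rw [div_le_iff₀ h1ε]
        calc ∑ l, |X i (κ l) - X j (κ l)| ^ q * (S / ((d : ℝ) * s (κ l)))
            ≤ (1 + ε) * ∑ k, |X i k - X j k| ^ q := hhi
          _ = T * (∑ k, |X i k - X j k| ^ q) * (1 - ε) := by rw [hεT]; ring

/-- The `ℓ_p` form: every `n`-point subset of `ℓ_p^m` embeds with distortion `D` into
`ℓ_p^d` with `d ≤ C n (log n)^(p+2)`, given the sensitivity bound (A) and the sampling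
lemma (B). -/
theorem assemble
    (hB : ∀ (m n : ℕ) (w : Fin m → Fin n × Fin n → ℝ) (s : Fin m → ℝ)
      (v : Fin n × Fin n → ℝ) (S : ℝ),
      (∀ k f, 0 ≤ w k f) → (∀ f, v f = ∑ k, w k f) → (∀ k, 0 ≤ s k) →
      (∀ k f, w k f ≤ s k * v f) → S = ∑ k, s k → 0 < S →
      ∀ ε : ℝ, 0 < ε → ε ≤ 1 → ∀ d : ℕ,
        8 * S * Real.log (2 * (Fintype.card (Fin n × Fin n) : ℝ) + 1) ≤ ε ^ 2 * d →
        ∃ κ : Fin d → Fin m, ∀ f,
          (1 - ε) * v f ≤ ∑ l, w (κ l) f * (S / ((d : ℝ) * s (κ l))) ∧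
          ∑ l, w (κ l) f * (S / ((d : ℝ) * s (κ l))) ≤ (1 + ε) * v f)
    (p : ENNReal) [Fact (1 ≤ p)] (hp : p ≠ ⊤) (A : ℝ) (hA0 : 0 ≤ A)
    (hA : ∀ (n m : ℕ), 2 ≤ n → ∀ x : Fin n → Fin m → ℝ, ∃ s : Fin m → ℝ,
      (∀ k, 0 ≤ s k) ∧
      (∀ k a b, |x a k - x b k| ^ p.toReal ≤ s k * ∑ k', |x a k' - x b k'| ^ p.toReal) ∧
      ∑ k, s k ≤ A * n * Real.log n ^ (p.toReal + 1))
    (D : ℝ) (hD : 1 < D) :
    ∃ C : ℝ, ∀ (n m : ℕ), 2 ≤ n → ∀ x : Fin n → PiLp p (fun _ : Fin m => ℝ),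
      ∃ (d : ℕ) (y : Fin n → PiLp p (fun _ : Fin d => ℝ)),
        (d : ℝ) ≤ C * n * Real.log n ^ (p.toReal + 2) ∧
        ∀ i j, dist (x i) (x j) ≤ dist (y i) (y j) ∧
          dist (y i) (y j) ≤ D * dist (x i) (x j) := by
  have hp1 : 1 ≤ p := Fact.out
  have hq : 1 ≤ p.toReal := by
    have := ENNReal.toReal_mono hp hp1
    simpa using this
  have hq0 : 0 < p.toReal := by linarith
  obtain ⟨C, hC⟩ := assemble_core hB p.toReal hq A hA0 hA D hD
  refine ⟨C, ?_⟩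
  intro n m hn x
  obtain ⟨d, Y, hd, hY⟩ := hC n m hn (fun a k => x a k)
  refine ⟨d, fun a => WithLp.toLp p (Y a), hd, ?_⟩
  intro i j
  obtain ⟨hlo, hhi⟩ := hY i j
  have hx : dist (x i) (x j) = (∑ k, |x i k - x j k| ^ p.toReal) ^ (1 / p.toReal) := by
    rw [PiLp.dist_eq_sum hq0]
    simp only [Real.dist_eq]
  have hy : dist (WithLp.toLp p (Y i)) (WithLp.toLp p (Y j))
      = (∑ l, |Y i l - Y j l| ^ p.toReal) ^ (1 / p.toReal) := by
    rw [PiLp.dist_eq_sum hq0]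
    simp only [Real.dist_eq]
  have hX0 : 0 ≤ ∑ k, |x i k - x j k| ^ p.toReal :=
    Finset.sum_nonneg (fun k _ => Real.rpow_nonneg (abs_nonneg _) _)
  have hY0 : 0 ≤ ∑ l, |Y i l - Y j l| ^ p.toReal :=
    Finset.sum_nonneg (fun k _ => Real.rpow_nonneg (abs_nonneg _) _)
  have hinv : 0 ≤ 1 / p.toReal := by positivity
  have hD0 : 0 ≤ D := by linarith
  rw [hx, hy]
  constructor
  · exact Real.rpow_le_rpow hX0 hlo hinv
  · calc (∑ l, |Y i l - Y j l| ^ p.toReal) ^ (1 / p.toReal)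
        ≤ (D ^ p.toReal * ∑ k, |x i k - x j k| ^ p.toReal) ^ (1 / p.toReal) :=
          Real.rpow_le_rpow hY0 hhi hinv
      _ = D * (∑ k, |x i k - x j k| ^ p.toReal) ^ (1 / p.toReal) := by
          rw [Real.mul_rpow (Real.rpow_nonneg hD0 _) hX0, one_div,
            Real.rpow_rpow_inv hD0 hq0.ne']

end Vale.Agent.Lib.P249.helper60
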