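import Mathlib

/-!
# P249: the harmonic bound (A2)

For any real function `δ` on a finite set, `∑ b, 1 / #{y | δ y ≤ δ b} ≤ H_n`.
-/

namespace Vale.Agent.Lib.P249.helper60

open Finset

/-- Finset form, by induction on the cardinality: remove a point where `δ` is largest. -/
theorem sum_inv_card_filter_le {ι : Type*} [DecidableEq ι] (δ : ι → ℝ) :
    ∀ (n : ℕ) (s : Finset ι), s.card = n →
      ∑ b ∈ s, (1 : ℝ) / ((s.filter (fun y => δ y ≤ δ b)).card : ℝ) ≤ (harmonic n : ℝ) := by
  intro n
  induction n with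
  | zero =>
    intro s hs
    rw [Finset.card_eq_zero] at hs
    subst hs
    simp
  | succ n ih =>
    intro s hs
    have hne : s.Nonempty := by
      rw [← Finset.card_pos]; omega
    obtain ⟨bs, hbs, hmax⟩ := Finset.exists_max_image s δ hne
    have hcard' : (s.erase bs).card = n := by
      rw [Finset.card_erase_of_mem hbs, hs]; rfl
    have hfull : s.filter (fun y => δ y ≤ δ bs) = s := by
      apply Finset.filter_true_of_mem
      intro y hy
      exact hmax y hy
    have hterm : ∀ b ∈ s.erase bs,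
        (1 : ℝ) / ((s.filter (fun y => δ y ≤ δ b)).card : ℝ)
          ≤ (1 : ℝ) / (((s.erase bs).filter (fun y => δ y ≤ δ b)).card : ℝ) := by
      intro b hb
      have hsub : (s.erase bs).filter (fun y => δ y ≤ δ b) ⊆ s.filter (fun y => δ y ≤ δ b) :=
        Finset.filter_subset_filter _ (Finset.erase_subset _ _)
      have hle : ((s.erase bs).filter (fun y => δ y ≤ δ b)).card
          ≤ (s.filter (fun y => δ y ≤ δ b)).card := Finset.card_le_card hsub
      have hpos : 0 < ((s.erase bs).filter (fun y => δ y ≤ δ b)).card := by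
        apply Finset.card_pos.mpr
        exact ⟨b, Finset.mem_filter.mpr ⟨hb, le_refl _⟩⟩
      have hpos' : (0 : ℝ) < (((s.erase bs).filter (fun y => δ y ≤ δ b)).card : ℝ) := by
        exact_mod_cast hpos
      apply one_div_le_one_div_of_le hpos'
      exact_mod_cast hle
    have hsplit : ∑ b ∈ s, (1 : ℝ) / ((s.filter (fun y => δ y ≤ δ b)).card : ℝ)
        = (1 : ℝ) / ((s.filter (fun y => δ y ≤ δ bs)).card : ℝ)
          + ∑ b ∈ s.erase bs, (1 : ℝ) / ((s.filter (fun y => δ y ≤ δ b)).card : ℝ) :=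
      (Finset.add_sum_erase s _ hbs).symm
    rw [hsplit, hfull, hs]
    have h1 := Finset.sum_le_sum hterm
    have h2 := ih (s.erase bs) hcard'
    have h3 : (harmonic (n + 1) : ℝ) = (harmonic n : ℝ) + 1 / ((n + 1 : ℕ) : ℝ) := by
      rw [harmonic_succ]
      push_cast
      ring
    rw [h3]
    linarith

/-- Fintype form with the harmonic number. -/
theorem sum_inv_card_le_harmonic {ι : Type*} [Fintype ι] (δ : ι → ℝ) :
    ∑ b, (1 : ℝ) / ((Finset.univ.filter (fun y => δ y ≤ δ b)).card : ℝ)
      ≤ (harmonic (Fintype.card ι) : ℝ) := by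
  classical
  exact sum_inv_card_filter_le δ (Fintype.card ι) Finset.univ Finset.card_univ

/-- Fintype form with the logarithm. -/
theorem sum_inv_card_le_log {ι : Type*} [Fintype ι] (δ : ι → ℝ) :
    ∑ b, (1 : ℝ) / ((Finset.univ.filter (fun y => δ y ≤ δ b)).card : ℝ)
      ≤ 1 + Real.log (Fintype.card ι) :=
  le_trans (sum_inv_card_le_harmonic δ) (harmonic_le_one_add_log _)

/-- Summed over the base point: `∑_{a,b} 1 / #{y | δ a y ≤ δ a b} ≤ n (1 + log n)`. -/
theorem sum_sum_inv_card_le {ι : Type*} [Fintype ι] (δ : ι → ι → ℝ) :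
    ∑ a, ∑ b, (1 : ℝ) / ((Finset.univ.filter (fun y => δ a y ≤ δ a b)).card : ℝ)
      ≤ (Fintype.card ι : ℝ) * (1 + Real.log (Fintype.card ι)) := by
  calc ∑ a, ∑ b, (1 : ℝ) / ((Finset.univ.filter (fun y => δ a y ≤ δ a b)).card : ℝ)
      ≤ ∑ _a : ι, (1 + Real.log (Fintype.card ι)) :=
        Finset.sum_le_sum (fun a _ => sum_inv_card_le_log (δ a))
    _ = (Fintype.card ι : ℝ) * (1 + Real.log (Fintype.card ι)) := by
        rw [Finset.sum_const, Finset.card_univ, nsmul_eq_mul]

end Vale.Agent.Lib.P249.helper60
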