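import Mathlib
import Vale.Agent.Lib.P249.helper60.Harmonic

/-!
# P249: the pair-sensitivity bound (A)

Abstract form: a finite pseudo-metric `d` on `ι`, coordinate weights `w k a b ≥ 0`
with `∑ k, w k a b = d a b ^ q`, symmetric and quasi-convex
(`w k a c ≤ 2^(q-1) (w k a b + w k b c)`).  Then there are `s k ≥ 0` with
`w k a b ≤ s k * d a b ^ q` and `∑ k, s k ≤ 2^q (2 M + 2)^q n (1 + log n)`,
`M = Nat.log 2 n`, `n = card ι`.
-/

namespace Vale.Agent.Lib.P249.helper60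

open Finset

/-- A bounded sequence of positive naturals has a doubling scale below `log₂ n`. -/
theorem exists_doubling (n : ℕ) (g : ℕ → ℕ) (h0 : 1 ≤ g 0) (hn : ∀ μ, g μ ≤ n) :
    ∃ μ, μ ≤ Nat.log 2 n ∧ g (μ + 1) ≤ 2 * g μ := by
  by_contra hcon
  have hcon' : ∀ μ, μ ≤ Nat.log 2 n → 2 * g μ < g (μ + 1) := by
    intro μ hμ
    by_contra h
    exact hcon ⟨μ, hμ, not_lt.mp h⟩
  have key : ∀ μ, μ ≤ Nat.log 2 n + 1 → 2 ^ μ ≤ g μ := by
    intro μ
    induction μ with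
    | zero => intro _; simpa using h0
    | succ μ ih =>
      intro hμ
      have h1 := ih (by omega)
      have h2 := hcon' μ (by omega)
      have h3 : 2 ^ (μ + 1) = 2 * 2 ^ μ := by ring
      omega
  have h3 := key (Nat.log 2 n + 1) le_rfl
  have h4 := Nat.lt_pow_succ_log_self (by norm_num : 1 < 2) n
  have h5 := hn (Nat.log 2 n + 1)
  omega

/-- Division by a smaller `q`-th power is larger (with the convention `a / 0 = 0` made
harmless by `x = 0 → a = 0`). -/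
theorem div_rpow_anti {a x y q : ℝ} (hq : 0 < q) (ha : 0 ≤ a) (hx : 0 ≤ x) (hxy : x ≤ y)
    (h0 : x = 0 → a = 0) : a / y ^ q ≤ a / x ^ q := by
  rcases hx.eq_or_lt with hx0 | hxpos
  · have : a = 0 := h0 hx0.symm
    rw [this]; simp
  · have h1 : 0 < x ^ q := Real.rpow_pos_of_pos hxpos q
    have h2 : x ^ q ≤ y ^ q := Real.rpow_le_rpow hx hxy hq.le
    exact div_le_div_of_nonneg_left ha h1 h2

section Abstract

variable {ι : Type*} [Fintype ι]

/-- The number of points `y` with `d a y ≤ d a b`, as a real number. -/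
noncomputable def bcard (d : ι → ι → ℝ) (a b : ι) : ℝ :=
  ((Finset.univ.filter (fun y => d a y ≤ d a b)).card : ℝ)

/-- The term of the potential for one coordinate. -/
noncomputable def tfun (d u : ι → ι → ℝ) (q : ℝ) (a b : ι) : ℝ :=
  (1 / bcard d a b) * (u a b / d a b ^ q)

theorem bcard_one_le (d : ι → ι → ℝ) (a b : ι) : 1 ≤ bcard d a b := by
  have : 0 < (Finset.univ.filter (fun y => d a y ≤ d a b)).card :=
    Finset.card_pos.mpr ⟨b, Finset.mem_filter.mpr ⟨Finset.mem_univ _, le_refl _⟩⟩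
  unfold bcard
  exact_mod_cast this

theorem bcard_le (d : ι → ι → ℝ) (a b : ι) (B : Finset ι)
    (h : ∀ y, d a y ≤ d a b → y ∈ B) : bcard d a b ≤ (B.card : ℝ) := by
  have : Finset.univ.filter (fun y => d a y ≤ d a b) ⊆ B := by
    intro y hy
    rw [Finset.mem_filter] at hy
    exact h y hy.2
  unfold bcard
  exact_mod_cast Finset.card_le_card this

theorem tfun_nonneg (d u : ι → ι → ℝ) (q : ℝ) (hdnn : ∀ a b, 0 ≤ d a b)
    (hu0 : ∀ a b, 0 ≤ u a b) (a b : ι) : 0 ≤ tfun d u q a b := by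
  have h1 : 0 ≤ d a b ^ q := Real.rpow_nonneg (hdnn a b) _
  have h2 : 0 ≤ u a b / d a b ^ q := div_nonneg (hu0 a b) h1
  have h3 : (0 : ℝ) ≤ 1 / bcard d a b := by
    have := bcard_one_le d a b
    positivity
  exact mul_nonneg h3 h2

/-- Contribution of a third point `l` of the ball `B1`. -/
theorem point_bound (q : ℝ) (hq0 : 0 < q) (d u : ι → ι → ℝ) (hdnn : ∀ a b, 0 ≤ d a b)
    (hdsymm : ∀ a b, d a b = d b a) (hdtri : ∀ a b c, d a c ≤ d a b + d b c)
    (hu0 : ∀ a b, 0 ≤ u a b) (husymm : ∀ a b, u a b = u b a)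
    (huz : ∀ a b, d a b = 0 → u a b = 0)
    (huconv : ∀ a b c, u a c ≤ 2 ^ q / 2 * (u a b + u b c))
    (i j l : ι) (C : ℝ) (hC1 : 1 ≤ C) (hρpos : 0 < d i j) (hl : d i l ≤ C * d i j)
    (B3 : Finset ι) (hB3 : ∀ y, d i y ≤ (C + 2) * d i j → y ∈ B3) (hB3pos : 0 < (B3.card : ℝ)) :
    2 * (u i j / d i j ^ q) / (2 ^ q * (C + 1) ^ q) / (B3.card : ℝ)
      ≤ tfun d u q i l + tfun d u q j l := by
  have hP2 : 0 < (2 : ℝ) ^ q := Real.rpow_pos_of_pos (by norm_num) q
  have hρq : 0 < d i j ^ q := Real.rpow_pos_of_pos hρpos q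
  have hCq : 0 < (C + 1) ^ q := Real.rpow_pos_of_pos (by linarith) q
  have hCρ : ((C + 1) * d i j) ^ q = (C + 1) ^ q * d i j ^ q :=
    Real.mul_rpow (by linarith) hρpos.le
  have hjl : d j l ≤ (C + 1) * d i j := by
    have h1 := hdtri j i l
    rw [hdsymm j i] at h1
    linarith
  have hil' : d i l ≤ (C + 1) * d i j := by nlinarith
  have hbil3 : bcard d i l ≤ (B3.card : ℝ) := by
    apply bcard_le
    intro y hy
    apply hB3
    nlinarith
  have hbjl3 : bcard d j l ≤ (B3.card : ℝ) := by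
    apply bcard_le
    intro y hy
    apply hB3
    have h1 := hdtri i j y
    nlinarith
  have hφi : 1 / (B3.card : ℝ) ≤ 1 / bcard d i l :=
    one_div_le_one_div_of_le (by linarith [bcard_one_le d i l]) hbil3
  have hφj : 1 / (B3.card : ℝ) ≤ 1 / bcard d j l :=
    one_div_le_one_div_of_le (by linarith [bcard_one_le d j l]) hbjl3
  have hri : u i l / ((C + 1) * d i j) ^ q ≤ u i l / d i l ^ q :=
    div_rpow_anti hq0 (hu0 i l) (hdnn i l) hil' (huz i l)
  have hrj : u j l / ((C + 1) * d i j) ^ q ≤ u j l / d j l ^ q :=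
    div_rpow_anti hq0 (hu0 j l) (hdnn j l) hjl (huz j l)
  have hri0 : 0 ≤ u i l / d i l ^ q := div_nonneg (hu0 i l) (Real.rpow_nonneg (hdnn i l) _)
  have hrj0 : 0 ≤ u j l / d j l ^ q := div_nonneg (hu0 j l) (Real.rpow_nonneg (hdnn j l) _)
  have hconv := huconv i l j
  rw [husymm l j] at hconv
  have hsumr : 2 * (u i j / d i j ^ q) / (2 ^ q * (C + 1) ^ q)
      ≤ u i l / d i l ^ q + u j l / d j l ^ q := by
    have h1 : 2 * (u i j / d i j ^ q) / (2 ^ q * (C + 1) ^ q)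
        = (2 * u i j / 2 ^ q) / ((C + 1) * d i j) ^ q := by
      rw [hCρ]
      field_simp
    have h2 : 2 * u i j / 2 ^ q ≤ u i l + u j l := by
      rw [div_le_iff₀ hP2]
      linarith
    have h3 : (2 * u i j / 2 ^ q) / ((C + 1) * d i j) ^ q
        ≤ (u i l + u j l) / ((C + 1) * d i j) ^ q := by
      apply div_le_div_of_nonneg_right h2
      rw [hCρ]; positivity
    rw [add_div] at h3
    linarith
  have hN3inv : 0 ≤ 1 / (B3.card : ℝ) := by positivity
  have e1 := mul_le_mul_of_nonneg_right hφi hri0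
  have e2 := mul_le_mul_of_nonneg_right hφj hrj0
  have e3 := mul_le_mul_of_nonneg_left hsumr hN3inv
  unfold tfun
  calc 2 * (u i j / d i j ^ q) / (2 ^ q * (C + 1) ^ q) / (B3.card : ℝ)
      = 1 / (B3.card : ℝ) * (2 * (u i j / d i j ^ q) / (2 ^ q * (C + 1) ^ q)) := by ring
    _ ≤ 1 / (B3.card : ℝ) * (u i l / d i l ^ q + u j l / d j l ^ q) := e3
    _ = 1 / (B3.card : ℝ) * (u i l / d i l ^ q) + 1 / (B3.card : ℝ) * (u j l / d j l ^ q) := by
        ring
    _ ≤ 1 / bcard d i l * (u i l / d i l ^ q) + 1 / bcard d j l * (u j l / d j l ^ q) := by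
        linarith

/-- Contribution of the pair itself. -/
theorem pair_bound (q : ℝ) (d u : ι → ι → ℝ) (hdnn : ∀ a b, 0 ≤ d a b)
    (hu0 : ∀ a b, 0 ≤ u a b) (i j : ι) (B1 : Finset ι)
    (hB1 : ∀ y, d i y ≤ d i j → y ∈ B1) :
    (u i j / d i j ^ q) / (B1.card : ℝ) ≤ tfun d u q i j := by
  have hb2 : bcard d i j ≤ (B1.card : ℝ) := bcard_le d i j B1 hB1
  have hb1 := bcard_one_le d i j
  have h1 : 1 / (B1.card : ℝ) ≤ 1 / bcard d i j :=
    one_div_le_one_div_of_le (by linarith) hb2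
  have hR0 : 0 ≤ u i j / d i j ^ q := div_nonneg (hu0 i j) (Real.rpow_nonneg (hdnn i j) _)
  have h2 := mul_le_mul_of_nonneg_right h1 hR0
  unfold tfun
  calc (u i j / d i j ^ q) / (B1.card : ℝ) = 1 / (B1.card : ℝ) * (u i j / d i j ^ q) := by ring
    _ ≤ _ := h2

/-- A double sum of nonnegative terms dominates the terms `(i,j)`, `(i,l)`, `(j,l)`, `l ∈ B'`. -/
theorem sum_lower [DecidableEq ι] (t : ι → ι → ℝ) (ht0 : ∀ a b, 0 ≤ t a b) (i j : ι)
    (hij : i ≠ j) (B' : Finset ι) (hjB' : j ∉ B') :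
    t i j + ∑ l ∈ B', (t i l + t j l) ≤ ∑ a, ∑ b, t a b := by
  have hrow : ∀ a, 0 ≤ ∑ b, t a b := fun a => Finset.sum_nonneg (fun b _ => ht0 a b)
  have h1 : ∑ b, t i b + ∑ b, t j b ≤ ∑ a, ∑ b, t a b := by
    have := Finset.sum_le_sum_of_subset_of_nonneg (Finset.subset_univ ({i, j} : Finset ι))
      (fun a _ _ => hrow a)
    rwa [Finset.sum_pair hij] at this
  have h2 : t i j + ∑ l ∈ B', t i l ≤ ∑ b, t i b := by
    have := Finset.sum_le_sum_of_subset_of_nonneg (Finset.subset_univ (insert j B'))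
      (fun b _ _ => ht0 i b)
    rwa [Finset.sum_insert hjB'] at this
  have h3 : ∑ l ∈ B', t j l ≤ ∑ b, t j b :=
    Finset.sum_le_sum_of_subset_of_nonneg (Finset.subset_univ B') (fun b _ _ => ht0 j b)
  rw [Finset.sum_add_distrib]
  linarith

/-- The final arithmetic. -/
theorem arith_final (R T N1 N3 P Cq nB : ℝ) (hR0 : 0 ≤ R) (hP : 2 ≤ P) (hCq : 1 ≤ Cq)
    (hN1 : 2 ≤ N1) (hN3pos : 0 < N3) (hN31 : N3 ≤ 2 * N1) (hnB : nB + 2 = N1)
    (hT : R / N1 + nB * (2 * R / (P * Cq) / N3) ≤ T) : R ≤ P * Cq * T := by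
  have hPC : 0 < P * Cq := by nlinarith
  set z : ℝ := 2 * R / (P * Cq) with hz
  have hz0 : 0 ≤ z := by positivity
  have hPC2 : 2 ≤ P * Cq := by nlinarith
  have hzR : z ≤ R := by
    rw [hz, div_le_iff₀ hPC]
    nlinarith [mul_nonneg hR0 (sub_nonneg.mpr hPC2)]
  have hN1pos : 0 < N1 := by linarith
  have hnB0 : 0 ≤ nB := by linarith
  have h1 : nB * (z / (2 * N1)) ≤ nB * (z / N3) :=
    mul_le_mul_of_nonneg_left (div_le_div_of_nonneg_left hz0 hN3pos hN31) hnB0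
  have h3 : z / 2 ≤ R / N1 + nB * (z / (2 * N1)) := by
    have hb : nB = N1 - 2 := by linarith
    have e : R / N1 + nB * (z / (2 * N1)) - z / 2 = (R - z) / N1 := by
      rw [hb]
      field_simp
      ring
    have : 0 ≤ (R - z) / N1 := div_nonneg (by linarith) hN1pos.le
    linarith
  have hkey : z / 2 ≤ T := by linarith
  have h4 : z / 2 = R / (P * Cq) := by
    rw [hz]; field_simp
  rw [h4, div_le_iff₀ hPC] at hkey
  linarith

/-- The pair-sensitivity bound for one coordinate `u` and one pair. -/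
theorem pair_sens (q : ℝ) (hq : 1 ≤ q) (d u : ι → ι → ℝ) (hd0 : ∀ a, d a a = 0)
    (hdsymm : ∀ a b, d a b = d b a) (hdtri : ∀ a b c, d a c ≤ d a b + d b c)
    (hu0 : ∀ a b, 0 ≤ u a b) (husymm : ∀ a b, u a b = u b a)
    (huz : ∀ a b, d a b = 0 → u a b = 0)
    (huconv : ∀ a b c, u a c ≤ 2 ^ q / 2 * (u a b + u b c)) (i j : ι) :
    u i j ≤ 2 ^ q * (2 * (Nat.log 2 (Fintype.card ι) : ℝ) + 2) ^ q *
      (∑ a, ∑ b, tfun d u q a b) * d i j ^ q := by
  classical
  have hq0 : 0 < q := by linarith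
  have hdnn : ∀ a b, 0 ≤ d a b := by
    intro a b
    have h1 := hdtri a b a
    rw [hd0 a, hdsymm b a] at h1
    linarith
  have ht0 : ∀ a b, 0 ≤ tfun d u q a b := tfun_nonneg d u q hdnn hu0
  have hT0 : 0 ≤ ∑ a, ∑ b, tfun d u q a b :=
    Finset.sum_nonneg (fun a _ => Finset.sum_nonneg (fun b _ => ht0 a b))
  have hMq0 : 0 ≤ (2 * (Nat.log 2 (Fintype.card ι) : ℝ) + 2) ^ q :=
    Real.rpow_nonneg (by positivity) _
  have hP2 : 0 < (2 : ℝ) ^ q := Real.rpow_pos_of_pos (by norm_num) q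
  rcases (hdnn i j).eq_or_lt with hρ0 | hρpos
  · -- degenerate pair
    rw [huz i j hρ0.symm, ← hρ0, Real.zero_rpow hq0.ne']
    simp
  -- the main case
  have hij : i ≠ j := by
    intro h
    rw [h, hd0 j] at hρpos
    exact lt_irrefl _ hρpos
  have hρq : 0 < d i j ^ q := Real.rpow_pos_of_pos hρpos q
  -- the doubling scale
  obtain ⟨μ, hμM, hdoub⟩ := exists_doubling (Fintype.card ι)
    (fun μ => (Finset.univ.filter (fun y => d i y ≤ (2 * (μ : ℝ) + 1) * d i j)).card)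
    (by
      apply Finset.card_pos.mpr
      refine ⟨i, Finset.mem_filter.mpr ⟨Finset.mem_univ _, ?_⟩⟩
      rw [hd0 i]
      have : (0 : ℝ) ≤ (2 * ((0 : ℕ) : ℝ) + 1) * d i j := by
        simp; exact hρpos.le
      exact this)
    (fun μ => Finset.card_le_univ _)
  have hC1 : (1 : ℝ) ≤ 2 * (μ : ℝ) + 1 := by
    have : (0 : ℝ) ≤ (μ : ℝ) := Nat.cast_nonneg _
    linarith
  have hmemB1 : ∀ y, y ∈ Finset.univ.filter (fun y => d i y ≤ (2 * (μ : ℝ) + 1) * d i j)
      ↔ d i y ≤ (2 * (μ : ℝ) + 1) * d i j := by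
    intro y; simp
  have hmemB3 : ∀ y,
      y ∈ Finset.univ.filter (fun y => d i y ≤ (2 * ((μ + 1 : ℕ) : ℝ) + 1) * d i j)
      ↔ d i y ≤ (2 * (μ : ℝ) + 1 + 2) * d i j := by
    intro y
    simp only [Finset.mem_filter, Finset.mem_univ, true_and]
    push_cast
    constructor <;> intro h <;> linarith
  have hiB1 : i ∈ Finset.univ.filter (fun y => d i y ≤ (2 * (μ : ℝ) + 1) * d i j) := by
    rw [hmemB1, hd0 i]; positivity
  have hjB1 : j ∈ Finset.univ.filter (fun y => d i y ≤ (2 * (μ : ℝ) + 1) * d i j) := by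
    rw [hmemB1]
    nlinarith
  obtain ⟨B1, hB1def⟩ : ∃ B1 : Finset ι,
      B1 = Finset.univ.filter (fun y => d i y ≤ (2 * (μ : ℝ) + 1) * d i j) := ⟨_, rfl⟩
  obtain ⟨B3, hB3def⟩ : ∃ B3 : Finset ι,
      B3 = Finset.univ.filter (fun y => d i y ≤ (2 * ((μ + 1 : ℕ) : ℝ) + 1) * d i j) := ⟨_, rfl⟩
  rw [← hB1def] at hmemB1 hiB1 hjB1 hdoub
  rw [← hB3def] at hmemB3 hdoub
  have hjB1i : j ∈ B1.erase i := Finset.mem_erase.mpr ⟨fun h => hij h.symm, hjB1⟩
  have hcardB' : ((B1.erase i).erase j).card + 2 = B1.card := by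
    have h1 : (B1.erase i).card = B1.card - 1 := Finset.card_erase_of_mem hiB1
    have h2 : ((B1.erase i).erase j).card = (B1.erase i).card - 1 :=
      Finset.card_erase_of_mem hjB1i
    have h3 : 0 < (B1.erase i).card := Finset.card_pos.mpr ⟨j, hjB1i⟩
    omega
  have hN1B' : (((B1.erase i).erase j).card : ℝ) + 2 = (B1.card : ℝ) := by
    exact_mod_cast hcardB'
  have hN1pos : (2 : ℝ) ≤ (B1.card : ℝ) := by
    have : (0 : ℝ) ≤ (((B1.erase i).erase j).card : ℝ) := Nat.cast_nonneg _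
    linarith
  have hN31 : (B3.card : ℝ) ≤ 2 * (B1.card : ℝ) := by
    exact_mod_cast hdoub
  have hB13 : B1 ⊆ B3 := by
    intro y hy
    rw [hmemB1] at hy
    rw [hmemB3]
    nlinarith
  have hN13 : (B1.card : ℝ) ≤ (B3.card : ℝ) := by
    exact_mod_cast Finset.card_le_card hB13
  have hN3pos : 0 < (B3.card : ℝ) := by linarith
  have hCqM : (2 * (μ : ℝ) + 1 + 1) ^ q ≤ (2 * (Nat.log 2 (Fintype.card ι) : ℝ) + 2) ^ q := by
    apply Real.rpow_le_rpow (by linarith) _ hq0.le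
    have : (μ : ℝ) ≤ (Nat.log 2 (Fintype.card ι) : ℝ) := by exact_mod_cast hμM
    linarith
  have hCq1 : 1 ≤ (2 * (μ : ℝ) + 1 + 1) ^ q := Real.one_le_rpow (by linarith) hq0.le
  -- per-point bound
  have hpoint : ∀ l ∈ (B1.erase i).erase j,
      2 * (u i j / d i j ^ q) / (2 ^ q * (2 * (μ : ℝ) + 1 + 1) ^ q) / (B3.card : ℝ)
        ≤ tfun d u q i l + tfun d u q j l := by
    intro l hl
    have hl1 : l ∈ B1.erase i := Finset.mem_of_mem_erase hl
    have hlB1 : d i l ≤ (2 * (μ : ℝ) + 1) * d i j := (hmemB1 l).mp (Finset.mem_of_mem_erase hl1)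
    exact point_bound q hq0 d u hdnn hdsymm hdtri hu0 husymm huz huconv i j l
      (2 * (μ : ℝ) + 1) hC1 hρpos hlB1 B3 (fun y hy => (hmemB3 y).mpr hy) hN3pos
  have hpair : (u i j / d i j ^ q) / (B1.card : ℝ) ≤ tfun d u q i j := by
    apply pair_bound q d u hdnn hu0 i j B1
    intro y hy
    rw [hmemB1]
    nlinarith
  have hsumT := sum_lower (tfun d u q) ht0 i j hij ((B1.erase i).erase j)
    (Finset.notMem_erase j _)
  have hsumB' : (((B1.erase i).erase j).card : ℝ) *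
      (2 * (u i j / d i j ^ q) / (2 ^ q * (2 * (μ : ℝ) + 1 + 1) ^ q) / (B3.card : ℝ))
      ≤ ∑ l ∈ (B1.erase i).erase j, (tfun d u q i l + tfun d u q j l) := by
    have := Finset.sum_le_sum hpoint
    rwa [Finset.sum_const, nsmul_eq_mul] at this
  have h2P : (2 : ℝ) ≤ 2 ^ q := by
    have := Real.rpow_le_rpow_of_exponent_le (by norm_num : (1 : ℝ) ≤ 2) hq
    simpa using this
  have hR0 : 0 ≤ u i j / d i j ^ q := div_nonneg (hu0 i j) hρq.le
  have hRT := arith_final (u i j / d i j ^ q) (∑ a, ∑ b, tfun d u q a b) (B1.card : ℝ)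
    (B3.card : ℝ) (2 ^ q) ((2 * (μ : ℝ) + 1 + 1) ^ q) (((B1.erase i).erase j).card : ℝ)
    hR0 h2P hCq1 hN1pos hN3pos hN31 hN1B' (by linarith)
  have hfin : u i j / d i j ^ q ≤ 2 ^ q * (2 * (Nat.log 2 (Fintype.card ι) : ℝ) + 2) ^ q *
      (∑ a, ∑ b, tfun d u q a b) := by
    have : 2 ^ q * (2 * (μ : ℝ) + 1 + 1) ^ q * (∑ a, ∑ b, tfun d u q a b)
        ≤ 2 ^ q * (2 * (Nat.log 2 (Fintype.card ι) : ℝ) + 2) ^ q *
          (∑ a, ∑ b, tfun d u q a b) := by
      apply mul_le_mul_of_nonneg_right _ hT0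
      exact mul_le_mul_of_nonneg_left hCqM hP2.le
    linarith
  rw [div_le_iff₀ hρq] at hfin
  exact hfin

variable {K : Type*} [Fintype K]

/-- The sensitivity bound (A), abstract form. -/
theorem sens_abstract (q : ℝ) (hq : 1 ≤ q) (d : ι → ι → ℝ) (hd0 : ∀ a, d a a = 0)
    (hdsymm : ∀ a b, d a b = d b a) (hdtri : ∀ a b c, d a c ≤ d a b + d b c)
    (w : K → ι → ι → ℝ) (hw0 : ∀ k a b, 0 ≤ w k a b) (hwsymm : ∀ k a b, w k a b = w k b a)
    (hwsum : ∀ a b, ∑ k, w k a b = d a b ^ q)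
    (hwconv : ∀ k a b c, w k a c ≤ 2 ^ q / 2 * (w k a b + w k b c)) :
    ∃ s : K → ℝ, (∀ k, 0 ≤ s k) ∧ (∀ k a b, w k a b ≤ s k * d a b ^ q) ∧
      ∑ k, s k ≤ 2 ^ q * (2 * (Nat.log 2 (Fintype.card ι) : ℝ) + 2) ^ q *
        ((Fintype.card ι : ℝ) * (1 + Real.log (Fintype.card ι))) := by
  have hq0 : 0 < q := by linarith
  have hdnn : ∀ a b, 0 ≤ d a b := by
    intro a b
    have h1 := hdtri a b a
    rw [hd0 a, hdsymm b a] at h1
    linarith
  have hwle : ∀ k a b, w k a b ≤ d a b ^ q := by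
    intro k a b
    rw [← hwsum a b]
    exact Finset.single_le_sum (fun k' _ => hw0 k' a b) (Finset.mem_univ k)
  have hwz : ∀ k a b, d a b = 0 → w k a b = 0 := by
    intro k a b h
    have h1 := hwle k a b
    rw [h, Real.zero_rpow hq0.ne'] at h1
    exact le_antisymm h1 (hw0 k a b)
  have hKc0 : 0 ≤ 2 ^ q * (2 * (Nat.log 2 (Fintype.card ι) : ℝ) + 2) ^ q := by
    have h1 : 0 < (2 : ℝ) ^ q := Real.rpow_pos_of_pos (by norm_num) q
    have h2 : 0 ≤ (2 * (Nat.log 2 (Fintype.card ι) : ℝ) + 2) ^ q :=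
      Real.rpow_nonneg (by positivity) _
    positivity
  have hTk0 : ∀ k, 0 ≤ ∑ a, ∑ b, tfun d (w k) q a b := fun k =>
    Finset.sum_nonneg (fun a _ => Finset.sum_nonneg
      (fun b _ => tfun_nonneg d (w k) q hdnn (hw0 k) a b))
  refine ⟨fun k => 2 ^ q * (2 * (Nat.log 2 (Fintype.card ι) : ℝ) + 2) ^ q *
      ∑ a, ∑ b, tfun d (w k) q a b, fun k => mul_nonneg hKc0 (hTk0 k), ?_, ?_⟩
  · intro k a b
    exact pair_sens q hq d (w k) hd0 hdsymm hdtri (hw0 k) (hwsymm k) (hwz k) (hwconv k) a b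
  · rw [← Finset.mul_sum]
    apply mul_le_mul_of_nonneg_left _ hKc0
    have h1 : ∑ k, ∑ a, ∑ b, tfun d (w k) q a b
        = ∑ a, ∑ b, (1 / bcard d a b) * ∑ k, (w k a b / d a b ^ q) := by
      rw [Finset.sum_comm]
      apply Finset.sum_congr rfl
      intro a _
      rw [Finset.sum_comm]
      apply Finset.sum_congr rfl
      intro b _
      rw [Finset.mul_sum]
      rfl
    have h2 : ∀ a b, ∑ k, (w k a b / d a b ^ q) ≤ 1 := by
      intro a b
      rw [← Finset.sum_div, hwsum a b]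
      exact div_self_le_one _
    have hφ0 : ∀ a b, (0 : ℝ) ≤ 1 / bcard d a b := by
      intro a b
      have := bcard_one_le d a b
      positivity
    have h3 : ∑ a, ∑ b, (1 / bcard d a b) * ∑ k, (w k a b / d a b ^ q)
        ≤ ∑ a, ∑ b, 1 / bcard d a b := by
      apply Finset.sum_le_sum
      intro a _
      apply Finset.sum_le_sum
      intro b _
      have := mul_le_mul_of_nonneg_left (h2 a b) (hφ0 a b)
      linarith
    have h4 := sum_sum_inv_card_le d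
    rw [h1]
    exact le_trans h3 h4

end Abstract

end Vale.Agent.Lib.P249.helper60
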