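import Mathlib
import Vale.Agent.Lib.P249.helper60.Sens

/-!
# P249: the sensitivity bound (A) for points of `ℓ_q^m`
-/

namespace Vale.Agent.Lib.P249.helper60

open Finset

/-- `|u + v|^q ≤ 2^q / 2 * (|u|^q + |v|^q)` for `q ≥ 1`. -/
theorem abs_add_rpow_le (q : ℝ) (hq : 1 ≤ q) (u v : ℝ) :
    |u + v| ^ q ≤ 2 ^ q / 2 * (|u| ^ q + |v| ^ q) := by
  have hq0 : 0 < q := by linarith
  have h1 : |u + v| ^ q ≤ (|u| + |v|) ^ q :=
    Real.rpow_le_rpow (abs_nonneg _) (abs_add_le u v) hq0.le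
  have h2 := NNReal.rpow_add_le_mul_rpow_add_rpow ⟨|u|, abs_nonneg u⟩ ⟨|v|, abs_nonneg v⟩ hq
  have h3 : (|u| + |v|) ^ q ≤ (2 : ℝ) ^ (q - 1) * (|u| ^ q + |v| ^ q) := by
    have := NNReal.coe_le_coe.mpr h2
    push_cast at this
    exact this
  have h4 : (2 : ℝ) ^ (q - 1) = 2 ^ q / 2 := by
    rw [Real.rpow_sub (by norm_num), Real.rpow_one]
  rw [h4] at h3
  exact le_trans h1 h3

/-- The sensitivity bound (A): for `n ≥ 2` points of `ℝ^m` there are coordinate weights
`s k ≥ 0` dominating every pair and of total mass `≤ A n (log n)^(q+1)`. -/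
theorem sens_lp (q : ℝ) (hq : 1 ≤ q) :
    ∃ A : ℝ, 0 ≤ A ∧ ∀ (n m : ℕ), 2 ≤ n → ∀ x : Fin n → Fin m → ℝ, ∃ s : Fin m → ℝ,
      (∀ k, 0 ≤ s k) ∧
      (∀ k a b, |x a k - x b k| ^ q ≤ s k * ∑ k', |x a k' - x b k'| ^ q) ∧
      ∑ k, s k ≤ A * n * Real.log n ^ (q + 1) := by
  have hq0 : 0 < q := by linarith
  have hlog2 : 0 < Real.log 2 := Real.log_pos (by norm_num)
  have hP2 : 0 < (2 : ℝ) ^ q := Real.rpow_pos_of_pos (by norm_num) q
  have h4l : 0 < 4 / Real.log 2 := by positivity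
  have h4lq : 0 < (4 / Real.log 2) ^ q := Real.rpow_pos_of_pos h4l q
  refine ⟨2 ^ q * (4 / Real.log 2) ^ q * (1 + 1 / Real.log 2), by positivity, ?_⟩
  intro n m hn x
  have hn2 : (2 : ℝ) ≤ n := by exact_mod_cast hn
  have hn0 : (0 : ℝ) < n := by linarith
  have hlogn : Real.log 2 ≤ Real.log n := Real.log_le_log (by norm_num) hn2
  have hlogn0 : 0 < Real.log n := lt_of_lt_of_le hlog2 hlogn
  have hratio : 1 ≤ Real.log n / Real.log 2 := by
    rw [le_div_iff₀ hlog2]; linarith
  -- the metric and the weights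
  have hS0 : ∀ a b, 0 ≤ ∑ k, |x a k - x b k| ^ q := fun a b =>
    Finset.sum_nonneg (fun k _ => Real.rpow_nonneg (abs_nonneg _) _)
  obtain ⟨s, hs0, hs, hsS⟩ := sens_abstract (ι := Fin n) (K := Fin m) q hq
    (fun a b => (∑ k, |x a k - x b k| ^ q) ^ (1 / q))
    (by
      intro a
      simp [Real.zero_rpow hq0.ne', hq0.ne'])
    (by
      intro a b
      simp only [abs_sub_comm (x a _) (x b _)])
    (by
      intro a b c
      have := Real.Lp_add_le Finset.univ (fun k => x a k - x b k) (fun k => x b k - x c k) hq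
      simpa using this)
    (fun k a b => |x a k - x b k| ^ q)
    (fun k a b => Real.rpow_nonneg (abs_nonneg _) _)
    (by
      intro k a b
      simp only [abs_sub_comm (x a k) (x b k)])
    (by
      intro a b
      rw [one_div, Real.rpow_inv_rpow (hS0 a b) hq0.ne'])
    (by
      intro k a b c
      have := abs_add_rpow_le q hq (x a k - x b k) (x b k - x c k)
      simpa using this)
  refine ⟨s, hs0, ?_, ?_⟩
  · intro k a b
    have := hs k a b
    rwa [one_div, Real.rpow_inv_rpow (hS0 a b) hq0.ne'] at this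
  · rw [Fintype.card_fin] at hsS
    have hM : (Nat.log 2 n : ℝ) ≤ Real.log n / Real.log 2 := by
      rw [le_div_iff₀ hlog2]
      have h1 : 2 ^ Nat.log 2 n ≤ n := Nat.pow_log_le_self 2 (by omega)
      have h2 : ((2 : ℝ) ^ Nat.log 2 n) ≤ (n : ℝ) := by exact_mod_cast h1
      have h3 := Real.log_le_log (by positivity) h2
      rwa [Real.log_pow] at h3
    have hb1 : 2 * (Nat.log 2 n : ℝ) + 2 ≤ 4 / Real.log 2 * Real.log n := by
      have : 4 / Real.log 2 * Real.log n = 4 * (Real.log n / Real.log 2) := by ring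
      rw [this]; linarith
    have hb2 : (2 * (Nat.log 2 n : ℝ) + 2) ^ q ≤ (4 / Real.log 2) ^ q * Real.log n ^ q := by
      rw [← Real.mul_rpow h4l.le hlogn0.le]
      exact Real.rpow_le_rpow (by positivity) hb1 hq0.le
    have hb3 : 1 + Real.log n ≤ (1 + 1 / Real.log 2) * Real.log n := by
      have : (1 + 1 / Real.log 2) * Real.log n = Real.log n + Real.log n / Real.log 2 := by ring
      rw [this]; linarith
    have hpw : Real.log n ^ q * Real.log n = Real.log n ^ (q + 1) :=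
      (Real.rpow_add_one hlogn0.ne' q).symm
    have hlq : 0 ≤ Real.log n ^ q := Real.rpow_nonneg hlogn0.le _
    calc ∑ k, s k ≤ 2 ^ q * (2 * (Nat.log 2 n : ℝ) + 2) ^ q * ((n : ℝ) * (1 + Real.log n)) := hsS
      _ ≤ 2 ^ q * ((4 / Real.log 2) ^ q * Real.log n ^ q) *
            ((n : ℝ) * ((1 + 1 / Real.log 2) * Real.log n)) := by
          apply mul_le_mul
          · exact mul_le_mul_of_nonneg_left hb2 hP2.le
          · exact mul_le_mul_of_nonneg_left hb3 hn0.le
          · positivity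
          · positivity
      _ = 2 ^ q * (4 / Real.log 2) ^ q * (1 + 1 / Real.log 2) * n *
            (Real.log n ^ q * Real.log n) := by ring
      _ = 2 ^ q * (4 / Real.log 2) ^ q * (1 + 1 / Real.log 2) * n * Real.log n ^ (q + 1) := by
          rw [hpw]

end Vale.Agent.Lib.P249.helper60
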